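import Vale.Agent.P130.Simple.Main

/-!
# P130: a transformation with simple Lebesgue spectrum
-/

open MeasureTheory

/-- Banach's problem: some invertible measure preserving transformation of a standard nonatomic
probability space has a mean zero square integrable function whose orbit `t ↦ f ∘ T ^ t`, `t ∈ ℤ`,
is an orthonormal basis of the mean zero square integrable functions. -/
theorem Vale.Agent.Results.P130.SimpleLebesgueSpectrum.result :
    ∃ (X : Type) (_ : MeasurableSpace X) (_ : StandardBorelSpace X) (μ : Measure X)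
      (_ : IsProbabilityMeasure μ) (T : X ≃ᵐ X),
      (∀ x : X, μ {x} = 0) ∧ MeasurePreserving T μ μ ∧
      ∃ f : X → ℂ, MemLp f 2 μ ∧ ∫ x, f x ∂μ = 0 ∧
        let orb : ℤ → X → ℂ := fun t x => f (if 0 ≤ t then (T : X → X)^[t.natAbs] x
          else (T.symm : X → X)^[t.natAbs] x)
        (∀ s t : ℤ, ∫ x, orb s x * starRingEnd ℂ (orb t x) ∂μ = if s = t then 1 else 0) ∧
        ∀ g : X → ℂ, MemLp g 2 μ → ∫ x, g x ∂μ = 0 →
          (∀ t : ℤ, ∫ x, g x * starRingEnd ℂ (orb t x) ∂μ = 0) → g =ᵐ[μ] 0 := by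
  obtain ⟨X, _, hstd, μ, hprob, hna, T, hT, h⟩ := Vale.Agent.P130.Simple.simpleLebesgueExists
  exact ⟨X, inferInstance, hstd, μ, hprob, T, fun x => hna.measure_singleton x, hT, h⟩
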